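import Vale.Agent.P263C76.Sus
import Vale.Agent.P263C25.Rows

/-!
# P263, invariance of the Arf invariant: the row `SUS`
-/

namespace Vale.Agent.P263C76

open Vale.Agent.P263 Vale.Agent.P263.FR Vale.Agent.P263C25

theorem sus' : SUS := by
  intro q n g F₀ F c _ hrep hh hR hc
  have hF : F (ST.pt _) = ST.pt _ := (hh.fst_eq_snd rfl).symm.trans hrep.1
  exact ⟨sF F₀ hrep.1, sF F hF, sC hF hc, rep_sF hrep, htpc_sF hF hrep.1 hh, regular_sF hF hR,
    isCollapse_sC hF hc, (maj_sC hF hc q).symm⟩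

theorem sus : PHI → SUS := fun _ => sus'

end Vale.Agent.P263C76
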