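import Vale.Agent.P263B6.Fin

/-!
# P263, invariance of the Arf invariant: the suspension of a framed manifold

* `sF F hF` : the suspension `F ∧ id`; `sE F hF` : its manifold is the manifold of `F`.
* `regular_sF`, `sC`, `isCollapse_sC` : the suspension is regular, and has a collapse map.
* `phi_sC` : the quadratic form does not change.
* `rep_unique` : two representatives of the same level are equal.
-/

open CategoryTheory OnePoint Topology

namespace Vale.Agent.P263C76

open Vale.Agent.P263 Vale.Agent.P263.FR Vale.Agent.P263.TJ Vale.Agent.P263A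

/-! ### stable homotopy -/

section st

variable {P : Type} [TopologicalSpace P] {m n m' n' : ℕ}

/-- based homotopy of two functions -/
def H0 (a b : T0.Sph m → TT n P) : Prop :=
  ∃ G : C(unitInterval × T0.Sph m, TT n P),
    (∀ z, G (0, z) = a z) ∧ (∀ z, G (1, z) = b z) ∧ ∀ t, G (t, ∞) = ∞

theorem H0.heq (hm : m = m') (hn : n = n') {a b : T0.Sph m → TT n P} {a' b' : T0.Sph m' → TT n' P}
    (ha : HEq a a') (hb : HEq b b') : H0 a b ↔ H0 a' b' := by
  subst hm hn
  cases ha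
  cases hb
  rfl

theorem susF_heq (hm : m = m') (hn : n = n') {a : T0.Sph m → TT n P} {a' : T0.Sph m' → TT n' P}
    (ha : HEq a a') : HEq (susF 1 a) (susF 1 a') := by
  subst hm hn
  cases ha
  rfl

theorem susF_comm (a : T0.Sph m → TT n P) (k : ℕ) :
    HEq (susF k (susF 1 a)) (susF (k + 1) a) := by
  induction k with
  | zero => exact heq_of_eq (funext fun z => susF_zero (a := susF 1 a) rfl z)
  | succ k ih =>
    have e1 : susF (k + 1) (susF 1 a) = susF (m := m + 1 + k) (n := n + 1 + k) 1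
      (susF k (susF 1 a)) := funext fun z => susF_succ (susF 1 a) z
    have e2 : susF (k + 1 + 1) a = susF (m := m + (k + 1)) (n := n + (k + 1)) 1
      (susF (k + 1) a) := funext fun z => susF_succ a z
    rw [e1, e2]
    exact susF_heq (by omega) (by omega) ih

variable [CompactSpace P] [T2Space P]

theorem H0.sus {a b : T0.Sph m → TT n P} (h : H0 a b) : H0 (susF 1 a) (susF 1 b) := by
  obtain ⟨G, h0, h1, h2⟩ := h
  let A : C(T0.Sph m, TT n P) := G.comp ((ContinuousMap.const _ 0).prodMk (ContinuousMap.id _))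
  let B : C(T0.Sph m, TT n P) := G.comp ((ContinuousMap.const _ 1).prodMk (ContinuousMap.id _))
  have hA : A ∞ = ∞ := h2 0
  have hB : B ∞ = ∞ := h2 1
  have hAB : A.HomotopicRel B {∞} := by
    refine ⟨⟨⟨G, fun _ => rfl, fun _ => rfl⟩, fun t z hz => ?_⟩⟩
    rw [Set.mem_singleton_iff.1 hz]
    exact (h2 t).trans hA.symm
  obtain ⟨H⟩ := susC_homotopicRel hAB hA hB 1
  have eA : (A : T0.Sph m → TT n P) = a := funext h0
  have eB : (B : T0.Sph m → TT n P) = b := funext h1
  refine ⟨H.toContinuousMap, fun z => ?_, fun z => ?_, fun t => ?_⟩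
  · rw [← eA]
    exact H.apply_zero z
  · rw [← eB]
    exact H.apply_one z
  · exact H.eq_fst t rfl

theorem stable_sus (a b : T0.Sph m → TT n P) :
    (∃ k, H0 (susF k (susF 1 a)) (susF k (susF 1 b))) ↔ ∃ k, H0 (susF k a) (susF k b) := by
  have key : ∀ k, H0 (susF k (susF 1 a)) (susF k (susF 1 b)) ↔
      H0 (susF (k + 1) a) (susF (k + 1) b) := fun k =>
    H0.heq (by omega) (by omega) (susF_comm a k) (susF_comm b k)
  constructor
  · rintro ⟨k, h⟩
    exact ⟨k + 1, (key k).1 h⟩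
  · rintro ⟨k, h⟩
    refine ⟨k, (key k).2 ?_⟩
    have e1 : susF (k + 1) a = susF (m := m + k) (n := n + k) 1 (susF k a) :=
      funext fun z => susF_succ a z
    have e2 : susF (k + 1) b = susF (m := m + k) (n := n + k) 1 (susF k b) :=
      funext fun z => susF_succ b z
    rw [e1, e2]
    exact h.sus

end st

theorem stHtpc_sus {m n : ℕ} {Y : TopCat.{0}} [CompactSpace Y] [T2Space Y]
    (a b : ST.Sph m → Th n Y) : StHtpc (susT 1 a) (susT 1 b) ↔ StHtpc a b :=
  stable_sus (P := Y) a b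

theorem fmap_susT {m n k : ℕ} {X Y : TopCat.{0}} (f : X → Y) (a : ST.Sph m → Th n X)
    (z : ST.Sph (m + k)) : Th.fmap f (susT k a z) = susT k (fun w => Th.fmap f (a w)) z := by
  induction z using OnePoint.rec with
  | infty => rfl
  | coe v =>
    obtain ⟨u, hu⟩ : ∃ u, u = a (ST.at' fun i => v (Fin.castAdd k i)) := ⟨_, rfl⟩
    show Th.fmap f (OnePoint.elim (a (ST.at' fun i => v (Fin.castAdd k i))) ∞ _) =
      OnePoint.elim (Th.fmap f (a (ST.at' fun i => v (Fin.castAdd k i)))) ∞ _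
    rw [← hu]
    induction u using OnePoint.rec with
    | infty => rfl
    | coe p => rfl

theorem fmap_fmap {n : ℕ} {X Y Z : TopCat.{0}} (f : X → Y) (g : Y → Z) (z : Th n X) :
    Th.fmap g (Th.fmap f z) = Th.fmap (fun x => g (f x)) z := by
  induction z using OnePoint.rec with
  | infty => rfl
  | coe p => rfl

/-- `φ(x) = 0` for `c` and for a map with the values `e⁻¹ (c ∧ id)` -/
theorem phiZero_iff {m n q : ℕ} {N N' : TopCat.{0}} (e : N' ≅ N) (c : ST.Sph m ⟶ Th n N)
    (c' : ST.Sph (m + 1) ⟶ Th (n + 1) N') (h : ∀ z, c' z = Th.fmap e.inv (susT 1 c z))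
    (x : Coh q N) : PhiZero c' (cohIso e x) ↔ PhiZero c x := by
  constructor
  · rintro ⟨Y, f, y, y₀, h1, h2, h3, h4⟩
    refine ⟨Y, e.inv ≫ f, y, y₀, h1, h2, ?_, (stHtpc_sus _ _).1 ?_⟩
    · rw [coh_pull_comp, h3]
      exact (cohIso e).symm_apply_apply x
    · have e1 : (fun z => Th.fmap f (c' z)) = susT 1 fun z => Th.fmap (e.inv ≫ f) (c z) := by
        funext z
        rw [h, fmap_fmap, fmap_susT]
        rfl
      have e2 : (fun z => Th.fmap (fun _ => y₀) (c' z)) =
          susT 1 fun z => Th.fmap (fun _ => y₀) (c z) := by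
        funext z
        rw [h, fmap_fmap, fmap_susT]
      rw [← e1, ← e2]
      exact h4
  · rintro ⟨Y, f, y, y₀, h1, h2, h3, h4⟩
    refine ⟨Y, e.hom ≫ f, y, y₀, h1, h2, ?_, ?_⟩
    · rw [coh_pull_comp, h3]
      rfl
    · have e1 : (fun z => Th.fmap (e.hom ≫ f) (c' z)) = susT 1 fun z => Th.fmap f (c z) := by
        funext z
        rw [h, fmap_fmap, fmap_susT]
        have e3 : (fun x => (e.hom ≫ f) (e.inv x)) = f := funext fun x =>
          congrArg f (e.inv_hom_id_apply x)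
        rw [e3]
      have e2 : (fun z => Th.fmap (fun _ => y₀) (c' z)) =
          susT 1 fun z => Th.fmap (fun _ => y₀) (c z) := by
        funext z
        rw [h, fmap_fmap, fmap_susT]
      rw [e1, e2]
      exact (stHtpc_sus _ _).2 h4

/-! ### the suspension of a regular map -/

variable {m n : ℕ}

/-- the suspension `F ∧ id` -/
noncomputable def sF (F : ST.Sph m ⟶ ST.Sph n) (hF : F (ST.pt m) = ST.pt n) :
    ST.Sph (m + 1) ⟶ ST.Sph (n + 1) :=
  TopCat.ofHom (KJ.susp F.hom hF 1)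

variable {F : ST.Sph m ⟶ ST.Sph n} (hF : F (ST.pt m) = ST.pt n)

theorem sF_pt : sF F hF (ST.pt (m + 1)) = ST.pt (n + 1) := KJ.susp_infty F.hom hF 1

theorem sF_join2 (x : T0.Sph m) (y : T0.Sph 1) :
    sF F hF (join2 x y) = join2 (show T0.Sph n from F x) y := KJ.susp_join2 F.hom hF x y

theorem sF_ap (v : Fin m → ℝ) (t : ℝ) : sF F hF (ST.at' (ap v t)) =
    join2 (show T0.Sph n from F (ST.at' v)) ((fun _ => t : Fin 1 → ℝ) : T0.Sph 1) :=
  sF_join2 hF (v : T0.Sph m) ((fun _ => t : Fin 1 → ℝ) : T0.Sph 1)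

theorem sF_of_coe {v : Fin m → ℝ} {w : Fin n → ℝ} (h : F (ST.at' v) = ST.at' w) (t : ℝ) :
    sF F hF (ST.at' (ap v t)) = ST.at' (ap w t) := by
  rw [sF_ap, h]
  rfl

theorem ap_zero : (ap (0 : Fin n → ℝ) 0 : Fin (n + 1) → ℝ) = 0 := ap_xp_tp (0 : Fin (n + 1) → ℝ)

theorem sF_eq_zero {y : Fin (m + 1) → ℝ} :
    sF F hF (ST.at' y) = ST.at' 0 ↔ F (ST.at' (xp y)) = ST.at' 0 ∧ tp y = 0 := by
  constructor
  · intro h
    rw [← ap_xp_tp y, sF_ap] at h
    obtain ⟨u, hu⟩ : ∃ u : T0.Sph n, u = F (ST.at' (xp y)) := ⟨_, rfl⟩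
    rw [← hu] at h ⊢
    induction u using OnePoint.rec with
    | infty =>
      rw [join2_infty_left] at h
      exact absurd h (OnePoint.infty_ne_coe _)
    | coe w =>
      have h1 : (ap w (tp y) : Fin (n + 1) → ℝ) = 0 := OnePoint.coe_injective h
      have h2 := congrArg xp h1
      have h3 := congrArg tp h1
      rw [xp_ap] at h2
      rw [tp_ap] at h3
      exact ⟨congrArg ST.at' h2, h3⟩
  · rintro ⟨h1, h2⟩
    rw [← ap_xp_tp y, sF_of_coe hF h1, h2, ap_zero]

/-- the manifold of the suspension -/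
noncomputable def sE : Mfd (sF F hF) ≃ₜ Mfd F where
  toFun y := ⟨xp y.1, ((sF_eq_zero hF).1 y.2).1⟩
  invFun v := ⟨ap v.1 0, (sF_of_coe hF v.2 0).trans (congrArg ST.at' ap_zero)⟩
  left_inv y := by
    apply Subtype.ext
    show ap (xp y.1) 0 = y.1
    rw [← ((sF_eq_zero hF).1 y.2).2, ap_xp_tp]
  right_inv v := Subtype.ext (xp_ap v.1 0)
  continuous_toFun := (continuous_xp.comp continuous_subtype_val).subtype_mk _
  continuous_invFun :=
    (continuous_ap.comp (continuous_subtype_val.prodMk continuous_const)).subtype_mk _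

/-- `ap` as a linear map -/
noncomputable def apL (n : ℕ) : ((Fin n → ℝ) × ℝ) →L[ℝ] (Fin (n + 1) → ℝ) :=
  LinearMap.toContinuousLinearMap
    { toFun := fun p => ap p.1 p.2
      map_add' := fun p p' => by
        funext i
        refine Fin.addCases (fun i => ?_) (fun i => ?_) i <;> simp [ap]
      map_smul' := fun r p => by
        funext i
        refine Fin.addCases (fun i => ?_) (fun i => ?_) i <;> simp [ap] }

theorem apL_apply (p : (Fin n → ℝ) × ℝ) : apL n p = ap p.1 p.2 := rfl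

theorem regular_sF (hR : Regular F) : Regular (sF F hF) := by
  obtain ⟨O, f, hO, hf, hFf, hreg⟩ := hR
  refine ⟨xp ⁻¹' O, fun y => apL n (f (xpL m y), tpL m y), hO.preimage continuous_xp, ?_,
    fun y hy => ?_, fun y hy => ?_⟩
  · refine (apL n).contDiff.comp_contDiffOn (ContDiffOn.prodMk ?_ (tpL m).contDiff.contDiffOn)
    exact hf.comp (xpL m).contDiff.contDiffOn fun y hy => hy
  · conv_lhs => rw [← ap_xp_tp y]
    exact sF_of_coe hF (hFf _ hy) _
  · obtain ⟨h1, h2⟩ := hreg _ ((sF_eq_zero hF).1 hy).1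
    refine ⟨h1, ?_⟩
    have h3 : HasFDerivAt f (fderiv ℝ f (xp y)) (xpL m y) :=
      ((hf.contDiffAt (hO.mem_nhds h1)).differentiableAt (by simp)).hasFDerivAt
    have h4 := (apL n).hasFDerivAt.comp y
      ((h3.comp y (xpL m).hasFDerivAt).prodMk (tpL m).hasFDerivAt)
    have h5 : fderiv ℝ (fun y => apL n (f (xpL m y), tpL m y)) y = _ := h4.fderiv
    rw [h5]
    intro z
    obtain ⟨u, hu⟩ := h2 (xp z)
    refine ⟨ap u (tp z), ?_⟩
    show ap (fderiv ℝ f (xp y) (xp (ap u (tp z)))) (tp (ap u (tp z))) = z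
    rw [xp_ap, tp_ap, hu, ap_xp_tp]

/-- the collapse map of the suspension -/
noncomputable def sC {c : ST.Sph m ⟶ Th n (Mfd F)} (hc : IsCollapse F c) :
    ST.Sph (m + 1) ⟶ Th (n + 1) (Mfd (sF F hF)) :=
  haveI : CompactSpace (Mfd F) := compactSpace_Mfd hF
  haveI : T2Space (Mfd F) := t2Space_Mfd
  haveI : CompactSpace (Mfd (sF F hF)) := compactSpace_Mfd (sF_pt hF)
  haveI : T2Space (Mfd (sF F hF)) := t2Space_Mfd
  TopCat.ofHom ((thm ((sE hF).symm : C(Mfd F, Mfd (sF F hF)))).comp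
    (susC (P := Mfd F) 1 c.hom (collapse_pt hF hc)))

theorem sC_apply {c : ST.Sph m ⟶ Th n (Mfd F)} (hc : IsCollapse F c) (z : ST.Sph (m + 1)) :
    sC hF hc z = Th.fmap (sE hF).symm (susT 1 c z) := rfl

theorem isCollapse_sC {c : ST.Sph m ⟶ Th n (Mfd F)} (hc : IsCollapse F c) :
    IsCollapse (sF F hF) (sC hF hc) := by
  have hj : ∀ (x : T0.Sph m) (y : T0.Sph 1), sC hF hc (join2 x y) =
      Th.fmap (sE hF).symm (snocT (P := Mfd F) (c x) y) := fun x y =>
    congrArg (Th.fmap (sE hF).symm) (susF_join2 (P := Mfd F) (collapse_pt hF hc) x y)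
  refine ⟨fun z => ?_, fun v => ?_⟩
  · obtain ⟨x, y, rfl⟩ := KJ.join2_surj m 1 z
    rw [hj, sF_join2, ← hc.1 x]
    generalize c x = w
    induction w using OnePoint.rec with
    | infty => rw [snocT_infty_left]; exact (join2_infty_left y).symm
    | coe w =>
      induction y using OnePoint.rec with
      | infty => rw [snocT_infty_right]; exact (join2_infty_right _).symm
      | coe y => rfl
  · obtain ⟨v, rfl⟩ := (sE hF).symm.surjective v
    refine (hj (v.1 : T0.Sph m) ((fun _ => 0 : Fin 1 → ℝ) : T0.Sph 1)).trans ?_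
    rw [show c (v.1 : T0.Sph m) = _ from hc.2 v]
    exact congrArg (fun w : Fin (n + 1) → ℝ => (OnePoint.some (w, (sE hF).symm v) :
      Th (n + 1) (Mfd (sF F hF)))) ap_zero

/-- the cohomology of the two manifolds -/
noncomputable def sI (q : ℕ) : Coh q (Mfd F) ≃ₗ[ZMod 2] Coh q (Mfd (sF F hF)) :=
  cohIso (TopCat.isoOfHomeo (sE hF))

theorem phiZero_sC {c : ST.Sph m ⟶ Th n (Mfd F)} (hc : IsCollapse F c) {q : ℕ}
    (x : Coh q (Mfd F)) : PhiZero (sC hF hc) (sI hF q x) ↔ PhiZero c x :=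
  phiZero_iff (TopCat.isoOfHomeo (sE hF)) c (sC hF hc) (fun _ => rfl) x

/-- **The form does not change.** -/
theorem phi_sC {c : ST.Sph m ⟶ Th n (Mfd F)} (hc : IsCollapse F c) {q : ℕ}
    (x : Coh q (Mfd F)) : phi (sC hF hc) (sI hF q x) = phi c x := by
  by_cases h : PhiZero c x
  · rw [phi_eq_zero h, phi_eq_zero ((phiZero_sC hF hc x).2 h)]
  · rw [phi_eq_one h, phi_eq_one fun h' => h ((phiZero_sC hF hc x).1 h')]

/-- **The value of the majority does not change.** -/
theorem maj_sC {c : ST.Sph m ⟶ Th n (Mfd F)} (hc : IsCollapse F c) (q : ℕ) :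
    Nat.card (Coh q (Mfd (sF F hF))) <
        2 * Nat.card {x : Coh q (Mfd (sF F hF)) // phi (sC hF hc) x = 1} ↔
      Nat.card (Coh q (Mfd F)) < 2 * Nat.card {x : Coh q (Mfd F) // phi c x = 1} := by
  rw [← Nat.card_congr (sI hF q).toEquiv, ← Nat.card_congr
    ((sI hF q).toEquiv.subtypeEquiv (p := fun x => phi c x = 1)
      (q := fun x => phi (sC hF hc) x = 1) fun x => by
        rw [← phi_sC hF hc x]
        rfl)]

theorem htpc_sF {F₀ : ST.Sph m ⟶ ST.Sph n} (hF₀ : F₀ (ST.pt m) = ST.pt n)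
    (h : ST.Htpc (ST.pt m) F₀ F) : ST.Htpc (ST.pt (m + 1)) (sF F₀ hF₀) (sF F hF) :=
  KJ.susp_homotopicRel h hF₀ hF 1

theorem rep_sF {d n : ℕ} {g : ST.BMap d} {F : ST.Sph (d + n) ⟶ ST.Sph n} (h : ST.Rep g F) :
    ST.Rep g (n := n + 1) (sF F h.1) := rep_susp1 (F := F.hom) h.1 h

/-- two representatives of the same level are equal -/
theorem rep_unique {d n : ℕ} {g : ST.BMap d} {F F' : ST.Sph (d + n) ⟶ ST.Sph n} (h : ST.Rep g F)
    (h' : ST.Rep g F') : F = F' := by
  obtain ⟨A, hA, e⟩ := h.exists_adjS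
  obtain ⟨A', hA', e'⟩ := h'.exists_adjS
  have : A = A' := ContinuousMap.ext fun x =>
    T0.toQ_injective n ((hA.eq x).trans (hA'.eq x).symm)
  subst this
  exact TopCat.hom_ext (e.trans e'.symm)

end Vale.Agent.P263C76
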